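import Mathlib

/-!
# P229: local smooth isometric immersions of surfaces into Euclidean three-space (definitions)
-/

namespace Vale.Agent.Lib.P229

/-- Points of the plane. -/
abbrev R2 : Type := ℝ × ℝ

/-- Points of three-space (coordinates). -/
abbrev R3 : Type := Fin 3 → ℝ

/-- The partial derivative of `F` in the `i`-th coordinate direction of the plane. -/
noncomputable def partialD (i : Fin 2) (F : R2 → R3) (p : R2) : R3 :=
  fderiv ℝ F p (if i = 0 then ((1 : ℝ), (0 : ℝ)) else ((0 : ℝ), (1 : ℝ)))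

/-- The standard inner product of `ℝ^3`. -/
def dot (v w : R3) : ℝ := ∑ k, v k * w k

/-- `g` is a `C^∞` Riemannian metric on the open set `Ω` of the plane. -/
structure IsSmoothMetric (Ω : Set R2) (g : Fin 2 → Fin 2 → R2 → ℝ) : Prop where
  isOpen : IsOpen Ω
  smooth : ∀ i j, ContDiffOn ℝ (⊤ : ℕ∞) (g i j) Ω
  symm : ∀ i j, ∀ p ∈ Ω, g i j p = g j i p
  posDef : ∀ p ∈ Ω, ∀ v : Fin 2 → ℝ, v ≠ 0 → 0 < ∑ i, ∑ j, g i j p * v i * v j

/-- `F` is a `C^∞` isometric immersion of `(U, g)` into Euclidean `ℝ^3`. -/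
def IsIsometricImmersion (g : Fin 2 → Fin 2 → R2 → ℝ) (U : Set R2) (F : R2 → R3) : Prop :=
  ContDiffOn ℝ (⊤ : ℕ∞) F U ∧ ∀ p ∈ U, ∀ i j, dot (partialD i F p) (partialD j F p) = g i j p

/-- The metric `g` on `Ω` is locally `C^∞`-realizable at `p`. -/
def LocallyRealizable (Ω : Set R2) (g : Fin 2 → Fin 2 → R2 → ℝ) (p : R2) : Prop :=
  ∃ U : Set R2, IsOpen U ∧ p ∈ U ∧ U ⊆ Ω ∧ ∃ F : R2 → R3, IsIsometricImmersion g U F

/-- The metric `E(x) dx^2 + 2 F(x) dx dy + G(x) dy^2`, whose coefficients do not depend on `y`. -/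
def invMetric (E F G : ℝ → ℝ) : Fin 2 → Fin 2 → R2 → ℝ :=
  fun i j p => if i = j then (if i = 0 then E p.1 else G p.1) else F p.1

end Vale.Agent.Lib.P229
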