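import Vale.Agent.Lib.P229.Defs

/-!
# Metrics with coefficients independent of `y` are locally smoothly realizable
-/

namespace Vale.Agent.Lib.P229

open Real Set

open scoped ContDiff

/-- primitive of a continuous function -/
noncomputable def prim (x0 : ℝ) (u : ℝ → ℝ) (x : ℝ) : ℝ := ∫ t in x0..x, u t

theorem prim_hasDerivAt (x0 : ℝ) {u : ℝ → ℝ} (hu : Continuous u) (x : ℝ) :
    HasDerivAt (prim x0 u) (u x) x :=
  (hu.integral_hasStrictDerivAt x0 x).hasDerivAt

theorem prim_contDiffOn (x0 : ℝ) {u : ℝ → ℝ} (hu : Continuous u) {J : Set ℝ} (hJ : IsOpen J)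
    (hs : ContDiffOn ℝ ∞ u J) : ContDiffOn ℝ ∞ (prim x0 u) J := by
  rw [contDiffOn_infty_iff_deriv_of_isOpen hJ]
  refine ⟨fun x _ => (prim_hasDerivAt x0 hu x).differentiableAt.differentiableWithinAt, ?_⟩
  have : deriv (prim x0 u) = u := funext fun x => (prim_hasDerivAt x0 hu x).deriv
  rw [this]
  exact hs

/-- the candidate immersion -/
noncomputable def heli (c : ℝ) (f φ h : ℝ → ℝ) (p : R2) : R3 :=
  ![f p.1 * cos (c * (p.2 + φ p.1)) / c, f p.1 * sin (c * (p.2 + φ p.1)) / c, h p.1]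

theorem heli_contDiffOn {c : ℝ} {f φ h : ℝ → ℝ} {J : Set ℝ}
    (hf : ContDiff ℝ ∞ f) (hφ : ContDiff ℝ ∞ φ) (hh : ContDiffOn ℝ ∞ h J) :
    ContDiffOn ℝ ∞ (heli c f φ h) {p : R2 | p.1 ∈ J} := by
  rw [contDiffOn_pi]
  intro i
  fin_cases i
  · have : ContDiff ℝ ∞ (fun p : R2 => f p.1 * cos (c * (p.2 + φ p.1)) / c) := by
      have h1 : ContDiff ℝ ∞ (fun p : R2 => f p.1) := hf.comp contDiff_fst
      have h2 : ContDiff ℝ ∞ (fun p : R2 => φ p.1) := hφ.comp contDiff_fst
      exact (h1.mul ((contDiff_const.mul (contDiff_snd.add h2)).cos)).div_const c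
    exact this.contDiffOn
  · have : ContDiff ℝ ∞ (fun p : R2 => f p.1 * sin (c * (p.2 + φ p.1)) / c) := by
      have h1 : ContDiff ℝ ∞ (fun p : R2 => f p.1) := hf.comp contDiff_fst
      have h2 : ContDiff ℝ ∞ (fun p : R2 => φ p.1) := hφ.comp contDiff_fst
      exact (h1.mul ((contDiff_const.mul (contDiff_snd.add h2)).sin)).div_const c
    exact this.contDiffOn
  · exact hh.comp contDiff_fst.contDiffOn (fun p hp => hp)

theorem partialD_eq_of_hasDerivAt {Φ : R2 → R3} {p : R2} (hd : DifferentiableAt ℝ Φ p)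
    (v : R2) (w : R3) (h : HasDerivAt (fun t : ℝ => Φ (p + t • v)) w 0) :
    fderiv ℝ Φ p v = w := by
  rw [← hd.lineDeriv_eq_fderiv]
  exact HasLineDerivAt.lineDeriv h

theorem heli_dx {c : ℝ} (hc : c ≠ 0) {f φ h : ℝ → ℝ} {p : R2} {f' φ' h' : ℝ}
    (hf : HasDerivAt f f' p.1) (hφ : HasDerivAt φ φ' p.1) (hh : HasDerivAt h h' p.1) :
    HasDerivAt (fun t : ℝ => heli c f φ h (p + t • ((1 : ℝ), (0 : ℝ))))
      ![f' * cos (c * (p.2 + φ p.1)) / c - f p.1 * φ' * sin (c * (p.2 + φ p.1)),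
        f' * sin (c * (p.2 + φ p.1)) / c + f p.1 * φ' * cos (c * (p.2 + φ p.1)), h'] 0 := by
  have hf0 : HasDerivAt (fun t : ℝ => f (p.1 + t)) f' 0 := by
    apply HasDerivAt.comp_const_add; simpa using hf
  have hφ0 : HasDerivAt (fun t : ℝ => φ (p.1 + t)) φ' 0 := by
    apply HasDerivAt.comp_const_add; simpa using hφ
  have hh0 : HasDerivAt (fun t : ℝ => h (p.1 + t)) h' 0 := by
    apply HasDerivAt.comp_const_add; simpa using hh
  have harg : HasDerivAt (fun t : ℝ => c * (p.2 + φ (p.1 + t))) (c * φ') 0 :=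
    (hφ0.const_add p.2).const_mul c
  rw [hasDerivAt_pi]
  intro i
  fin_cases i
  · have := (hf0.mul harg.cos).div_const c
    simp only [heli, Prod.fst_add, Prod.snd_add, Prod.smul_mk, smul_eq_mul, mul_one, mul_zero,
      add_zero, Fin.zero_eta, Matrix.cons_val_zero]
    refine this.congr_deriv ?_
    simp only [add_zero]
    field_simp
    ring
  · have := (hf0.mul harg.sin).div_const c
    simp only [heli, Prod.fst_add, Prod.snd_add, Prod.smul_mk, smul_eq_mul, mul_one, mul_zero,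
      add_zero, Fin.mk_one, Matrix.cons_val_one, Matrix.cons_val_zero]
    refine this.congr_deriv ?_
    simp only [add_zero]
    field_simp
  · simpa [heli] using hh0

theorem heli_dy {c : ℝ} (hc : c ≠ 0) {f φ h : ℝ → ℝ} {p : R2} :
    HasDerivAt (fun t : ℝ => heli c f φ h (p + t • ((0 : ℝ), (1 : ℝ))))
      ![- (f p.1 * sin (c * (p.2 + φ p.1))), f p.1 * cos (c * (p.2 + φ p.1)), 0] 0 := by
  have harg : HasDerivAt (fun t : ℝ => c * (p.2 + t + φ p.1)) c 0 := by
    have := (((hasDerivAt_id (0 : ℝ)).const_add p.2).add_const (φ p.1)).const_mul c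
    simpa using this
  rw [hasDerivAt_pi]
  intro i
  fin_cases i
  · have := (harg.cos.const_mul (f p.1)).div_const c
    simp only [heli, Prod.fst_add, Prod.snd_add, Prod.smul_mk, smul_eq_mul, mul_one, mul_zero,
      add_zero, Fin.zero_eta, Matrix.cons_val_zero]
    refine this.congr_deriv ?_
    simp only [add_zero]
    field_simp
  · have := (harg.sin.const_mul (f p.1)).div_const c
    simp only [heli, Prod.fst_add, Prod.snd_add, Prod.smul_mk, smul_eq_mul, mul_one, mul_zero,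
      add_zero, Fin.mk_one, Matrix.cons_val_one, Matrix.cons_val_zero]
    refine this.congr_deriv ?_
    simp only [add_zero]
    field_simp
  · simpa [heli] using hasDerivAt_const (0 : ℝ) (h p.1)

end Vale.Agent.Lib.P229
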