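import Vale.Agent.Lib.P229.Helicoid

/-!
# Metrics with coefficients independent of `y`: main theorem
-/

namespace Vale.Agent.Lib.P229

open Real Set

open scoped ContDiff

theorem G_pos {E F G : ℝ → ℝ} (hE0 : ∀ x, 0 < E x) (hdet : ∀ x, 0 < E x * G x - F x ^ 2) (x : ℝ) :
    0 < G x := by
  have h1 := hdet x
  have h2 : 0 < E x * G x := by nlinarith [sq_nonneg (F x)]
  exact (pos_iff_pos_of_mul_pos h2).1 (hE0 x)

theorem invMetric_isSmoothMetric {E F G : ℝ → ℝ} (hE : ContDiff ℝ ∞ E) (hF : ContDiff ℝ ∞ F)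
    (hG : ContDiff ℝ ∞ G) (hE0 : ∀ x, 0 < E x) (hdet : ∀ x, 0 < E x * G x - F x ^ 2) :
    IsSmoothMetric univ (invMetric E F G) where
  isOpen := isOpen_univ
  smooth := by
    intro i j
    have e1 : ContDiffOn ℝ ∞ (fun p : R2 => E p.1) univ := (hE.comp contDiff_fst).contDiffOn
    have e2 : ContDiffOn ℝ ∞ (fun p : R2 => F p.1) univ := (hF.comp contDiff_fst).contDiffOn
    have e3 : ContDiffOn ℝ ∞ (fun p : R2 => G p.1) univ := (hG.comp contDiff_fst).contDiffOn
    fin_cases i <;> fin_cases j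
    · exact e1
    · exact e2
    · exact e2
    · exact e3
  symm := by
    intro i j p _
    unfold invMetric
    by_cases hij : i = j
    · subst hij; rfl
    · have : ¬ j = i := fun h => hij h.symm
      simp [hij, this]
  posDef := by
    intro p _ v hv
    have hsum : ∑ i, ∑ j, invMetric E F G i j p * v i * v j
        = E p.1 * v 0 ^ 2 + 2 * F p.1 * v 0 * v 1 + G p.1 * v 1 ^ 2 := by
      simp [Fin.sum_univ_two, invMetric]
      ring
    rw [hsum]
    have hE1 := hE0 p.1
    have hd := hdet p.1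
    have key : E p.1 * (E p.1 * v 0 ^ 2 + 2 * F p.1 * v 0 * v 1 + G p.1 * v 1 ^ 2)
        = (E p.1 * v 0 + F p.1 * v 1) ^ 2 + (E p.1 * G p.1 - F p.1 ^ 2) * v 1 ^ 2 := by ring
    have hpos : 0 < (E p.1 * v 0 + F p.1 * v 1) ^ 2 + (E p.1 * G p.1 - F p.1 ^ 2) * v 1 ^ 2 := by
      by_cases h1 : v 1 = 0
      · have h0 : v 0 ≠ 0 := by
          intro h0
          apply hv
          funext i
          fin_cases i
          · exact h0
          · exact h1
        rw [h1]
        have : E p.1 * v 0 ≠ 0 := mul_ne_zero hE1.ne' h0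
        have h2 : 0 < (E p.1 * v 0) ^ 2 := by positivity
        simpa using h2
      · have : 0 < (E p.1 * G p.1 - F p.1 ^ 2) * v 1 ^ 2 := by positivity
        nlinarith [sq_nonneg (E p.1 * v 0 + F p.1 * v 1)]
    rw [← key] at hpos
    exact (pos_iff_pos_of_mul_pos hpos).1 hE1

theorem invMetric_locallyRealizable {E F G : ℝ → ℝ} (hE : ContDiff ℝ ∞ E) (hF : ContDiff ℝ ∞ F)
    (hG : ContDiff ℝ ∞ G) (hE0 : ∀ x, 0 < E x) (hdet : ∀ x, 0 < E x * G x - F x ^ 2) (p0 : R2) :
    LocallyRealizable univ (invMetric E F G) p0 := by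
  have hG0 : ∀ x, 0 < G x := G_pos hE0 hdet
  set f : ℝ → ℝ := fun x => √(G x) with hfdef
  have hf : ContDiff ℝ ∞ f := hG.sqrt (fun x => (hG0 x).ne')
  have hf2 : ∀ x, f x ^ 2 = G x := fun x => Real.sq_sqrt (hG0 x).le
  have hf' : ContDiff ℝ ∞ (deriv f) := (contDiff_infty_iff_deriv.1 hf).2
  have hfd : ∀ x, HasDerivAt f (deriv f x) x := fun x =>
    ((contDiff_infty_iff_deriv.1 hf).1 x).hasDerivAt
  set x0 := p0.1 with hx0
  set m : ℝ := E x0 - F x0 ^ 2 / G x0 with hm
  have hm0 : 0 < m := by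
    have h1 := hdet x0
    have h2 := hG0 x0
    rw [hm, sub_pos, div_lt_iff₀ h2]
    linarith
  set a : ℝ := deriv f x0 ^ 2 with ha
  have ha0 : 0 ≤ a := sq_nonneg _
  set c : ℝ := a / m + 1 with hc
  have hc1 : 1 ≤ c := by
    have : 0 ≤ a / m := div_nonneg ha0 hm0.le
    linarith
  have hc0 : c ≠ 0 := by linarith
  have hcpos : 0 < c := by linarith
  set ψ : ℝ → ℝ := fun x => E x - F x ^ 2 / G x - deriv f x ^ 2 / c ^ 2 with hψ
  have hψs : ContDiff ℝ ∞ ψ :=
    (hE.sub ((hF.pow 2).div hG (fun x => (hG0 x).ne'))).sub ((hf'.pow 2).div_const _)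
  have hψ0 : 0 < ψ x0 := by
    have h1 : a / c ^ 2 < m := by
      rw [div_lt_iff₀ (by positivity)]
      have h2 : a / m < c := by linarith
      have h3 : a < c * m := (div_lt_iff₀ hm0).1 h2
      have h4 : c * m ≤ m * c ^ 2 := by nlinarith
      linarith
    simp only [hψ]
    linarith
  set J : Set ℝ := {x | 0 < ψ x} with hJ
  have hJo : IsOpen J := isOpen_lt continuous_const hψs.continuous
  set u : ℝ → ℝ := fun x => √(ψ x) with hu
  have huc : Continuous u := hψs.continuous.sqrt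
  have hus : ContDiffOn ℝ ∞ u J := hψs.contDiffOn.sqrt (fun x hx => (ne_of_gt hx))
  set h : ℝ → ℝ := prim x0 u with hh
  have hhs : ContDiffOn ℝ ∞ h J := prim_contDiffOn x0 huc hJo hus
  set w : ℝ → ℝ := fun x => F x / G x with hw
  have hws : ContDiff ℝ ∞ w := hF.div hG (fun x => (hG0 x).ne')
  set φ : ℝ → ℝ := prim x0 w with hφ
  have hφs : ContDiff ℝ ∞ φ := by
    rw [← contDiffOn_univ]
    exact prim_contDiffOn x0 hws.continuous isOpen_univ hws.contDiffOn
  set U : Set R2 := {p : R2 | p.1 ∈ J} with hU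
  have hUo : IsOpen U := hJo.preimage continuous_fst
  have hsm : ContDiffOn ℝ ∞ (heli c f φ h) U := heli_contDiffOn hf hφs hhs
  refine ⟨U, hUo, hψ0, subset_univ _, heli c f φ h, hsm, ?_⟩
  intro p hp
  have hd : DifferentiableAt ℝ (heli c f φ h) p :=
    (hsm.differentiableOn (by simp)).differentiableAt (hUo.mem_nhds hp)
  have hpx : partialD 0 (heli c f φ h) p = _ :=
    partialD_eq_of_hasDerivAt hd _ _
      (heli_dx hc0 (hfd p.1) (prim_hasDerivAt x0 hws.continuous p.1) (prim_hasDerivAt x0 huc p.1))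
  have hpy : partialD 1 (heli c f φ h) p = _ :=
    partialD_eq_of_hasDerivAt hd _ _ (heli_dy (f := f) (φ := φ) (h := h) hc0)
  have hsc := Real.sin_sq_add_cos_sq (c * (p.2 + φ p.1))
  set s := sin (c * (p.2 + φ p.1)) with hs
  set k := cos (c * (p.2 + φ p.1)) with hk
  have hu2 : u p.1 ^ 2 = ψ p.1 := Real.sq_sqrt (le_of_lt hp)
  have hGp := hG0 p.1
  have hfp := hf2 p.1
  have hk2 : k ^ 2 = 1 - s ^ 2 := by linarith
  intro i j
  fin_cases i <;> fin_cases j
  · show dot (partialD 0 _ p) (partialD 0 _ p) = _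
    rw [hpx]
    simp only [dot, Fin.sum_univ_three, invMetric, Matrix.cons_val_zero, Matrix.cons_val_one,
      Matrix.cons_val_two, Matrix.tail_cons, Matrix.head_cons, if_true]
    have e1 : (deriv f p.1 * k / c - f p.1 * w p.1 * s) * (deriv f p.1 * k / c - f p.1 * w p.1 * s)
        + (deriv f p.1 * s / c + f p.1 * w p.1 * k) * (deriv f p.1 * s / c + f p.1 * w p.1 * k)
        + u p.1 * u p.1
        = (deriv f p.1 ^ 2 / c ^ 2 + f p.1 ^ 2 * w p.1 ^ 2) * (s ^ 2 + k ^ 2) + u p.1 ^ 2 := by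
      field_simp
      ring
    rw [e1, hsc, hu2, hfp]
    show _ = E p.1
    simp only [hψ, hw]
    field_simp
    ring
  · show dot (partialD 0 _ p) (partialD 1 _ p) = _
    rw [hpx, hpy]
    simp only [dot, Fin.sum_univ_three, invMetric, Matrix.cons_val_zero, Matrix.cons_val_one,
      Matrix.cons_val_two, Matrix.tail_cons, Matrix.head_cons]
    have e1 : (deriv f p.1 * k / c - f p.1 * w p.1 * s) * -(f p.1 * s)
        + (deriv f p.1 * s / c + f p.1 * w p.1 * k) * (f p.1 * k) + u p.1 * 0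
        = f p.1 ^ 2 * w p.1 * (s ^ 2 + k ^ 2) := by
      field_simp
      ring
    rw [e1, hsc, hfp]
    show _ = F p.1
    simp only [hw]
    field_simp
  · show dot (partialD 1 _ p) (partialD 0 _ p) = _
    rw [hpx, hpy]
    simp only [dot, Fin.sum_univ_three, invMetric, Matrix.cons_val_zero, Matrix.cons_val_one,
      Matrix.cons_val_two, Matrix.tail_cons, Matrix.head_cons]
    have e1 : -(f p.1 * s) * (deriv f p.1 * k / c - f p.1 * w p.1 * s)
        + (f p.1 * k) * (deriv f p.1 * s / c + f p.1 * w p.1 * k) + 0 * u p.1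
        = f p.1 ^ 2 * w p.1 * (s ^ 2 + k ^ 2) := by
      field_simp
      ring
    rw [e1, hsc, hfp]
    show _ = F p.1
    simp only [hw]
    field_simp
  · show dot (partialD 1 _ p) (partialD 1 _ p) = _
    rw [hpy]
    simp only [dot, Fin.sum_univ_three, invMetric, Matrix.cons_val_zero, Matrix.cons_val_one,
      Matrix.cons_val_two, Matrix.tail_cons, Matrix.head_cons]
    have e1 : -(f p.1 * s) * -(f p.1 * s) + f p.1 * k * (f p.1 * k) + 0 * 0
        = f p.1 ^ 2 * (s ^ 2 + k ^ 2) := by ring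
    rw [e1, hsc, hfp]
    show _ = G p.1
    ring

end Vale.Agent.Lib.P229
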